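import Vale.Agent.P295.Quadratic

/-!
Stable coordinates of degree at most two are coordinates.
-/

namespace Vale.Agent.Results.P295.QuadraticStable

open MvPolynomial

theorem result :
    ∀ (n m : ℕ) (f : MvPolynomial (Fin n) ℂ), f.totalDegree ≤ 2 →
      (∃ (e : MvPolynomial (Fin n ⊕ Fin m) ℂ ≃ₐ[ℂ] MvPolynomial (Fin n ⊕ Fin m) ℂ)
        (i : Fin n ⊕ Fin m), e (rename Sum.inl f) = X i) →
      ∃ (e : MvPolynomial (Fin n) ℂ ≃ₐ[ℂ] MvPolynomial (Fin n) ℂ) (i : Fin n), e f = X i := by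
  intro n m f hdeg ⟨e, i, he⟩
  exact Vale.Agent.P295.coordinate_of_no_critical hdeg
    (Vale.Agent.P295.no_critical_of_stable e i he)

end Vale.Agent.Results.P295.QuadraticStable
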